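import Vale.Agent.P329.R2.H874.Clean
import Mathlib.Data.Fin.VecNotation
import Mathlib.Tactic.FinCases

/-! Explicit clean pairs of permutations -/

namespace Vale.Agent.P329.R2.H874

open Vale.Agent.P329 Vale.Agent.P329.H548

/-- two letters acting as permutations, all languages of height at most one -/
def Good2 {n : ℕ} (p q : Fin n → Fin n) : Prop :=
  ∃ f : Bool → Equiv.Perm (Fin n), ⇑(f true) = p ∧ ⇑(f false) = q ∧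
    ∀ S : Set (Equiv.Perm (Fin n)), ∃ x : GRE Bool, x.height ≤ 1 ∧
      x.lang = {w | (w.map f).prod ∈ S}

/-- table lookup -/
def tb (l : List (List ℕ)) (x y : ℕ) : ℕ := (l.getD x []).getD y 0

theorem good2 {n : ℕ} [NeZero n] (p q p' q' : Fin n → Fin n) (c ρ : List (List ℕ))
    (h1 : ∀ i, p' (p i) = i) (h2 : ∀ i, p (p' i) = i)
    (h3 : ∀ i, q' (q i) = i) (h4 : ∀ i, q (q' i) = i)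
    (k1 : ∀ x y : Fin n, x ≠ y → x ≠ 0 → y ≠ 0 → p' x ≠ 0 → p' y ≠ 0 →
      tb c (p' x).val (p' y).val ≤ tb c x.val y.val)
    (k2 : ∀ x y : Fin n, x ≠ y → x ≠ 0 → y ≠ 0 → q' x ≠ 0 → q' y ≠ 0 →
      tb c (q' x).val (q' y).val ≤ tb c x.val y.val)
    (k3 : ∀ x y : Fin n, x ≠ y → x ≠ 0 → y ≠ 0 →
      tb ρ (tb c x.val y.val) x.val < tb ρ (tb c x.val y.val) y.val) : Good2 p q := by
  let f : Bool → Equiv.Perm (Fin n) := fun b =>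
    Bool.rec ⟨q, q', h3, h4⟩ ⟨p, p', h1, h2⟩ b
  have hn : NoCyc (dl (fun a => (f a)⁻¹) (0 : Fin n)) := by
    apply noCyc_pairs _ _ (fun x y => tb c x.val y.val) (fun l x => tb ρ l x.val)
    · intro a x y
      cases a
      · exact k2 x y
      · exact k1 x y
    · exact k3
  refine ⟨f, rfl, rfl, fun S => ?_⟩
  obtain ⟨e, he, -, hg⟩ := perm_good f (0 : Fin n) hn
  apply height_one he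
  intro u v huv
  change (u.map f).prod ∈ S ↔ (v.map f).prod ∈ S
  rw [hg u v huv]

/-- GL3 2, order 168, 7 points -/
theorem gl3_2 : Good2 (n := 7) ![1, 4, 6, 2, 3, 0, 5] ![1, 2, 3, 4, 5, 6, 0] :=
  good2 _ _ ![5, 0, 3, 4, 1, 6, 2] ![6, 0, 1, 2, 3, 4, 5]
    [[0, 0, 0, 0, 0, 0, 0], [0, 0, 0, 0, 0, 0, 0], [0, 1, 0, 1, 1, 2, 2], [0, 1, 2, 0, 1, 2, 2], [0, 1, 2, 2, 0, 2, 2], [0, 2, 3, 3, 3, 0, 3], [0, 3, 3, 3, 3, 4, 0]]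
    [[0, 0, 1, 1, 1, 1, 1], [0, 3, 0, 1, 2, 0, 0], [0, 4, 2, 1, 0, 3, 3], [0, 2, 2, 2, 2, 0, 1], [0, 0, 0, 0, 0, 1, 0]]
    (by decide +kernel) (by decide +kernel) (by decide +kernel) (by decide +kernel)
    (by decide +kernel) (by decide +kernel) (by decide +kernel)

/-- PGL2 7, order 336, 8 points -/
theorem pgl2_7 : Good2 (n := 8) ![3, 0, 7, 2, 4, 1, 5, 6] ![4, 1, 2, 7, 3, 0, 5, 6] :=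
  good2 _ _ ![1, 5, 3, 0, 4, 6, 7, 2] ![5, 1, 2, 4, 0, 6, 7, 3]
    [[0, 0, 0, 0, 0, 0, 0, 0], [0, 0, 0, 0, 0, 1, 1, 1], [0, 2, 0, 0, 0, 2, 2, 2], [0, 2, 1, 0, 0, 2, 2, 2], [0, 2, 1, 1, 0, 2, 1, 1], [0, 2, 1, 0, 0, 0, 1, 1], [0, 2, 1, 1, 0, 2, 0, 1], [0, 2, 1, 1, 0, 2, 2, 0]]
    [[0, 0, 1, 2, 3, 0, 0, 0], [0, 0, 5, 4, 0, 1, 2, 3], [0, 4, 0, 0, 0, 3, 2, 1]]
    (by decide +kernel) (by decide +kernel) (by decide +kernel) (by decide +kernel)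
    (by decide +kernel) (by decide +kernel) (by decide +kernel)

/-- PSL2 8, order 504, 9 points -/
theorem psl2_8 : Good2 (n := 9) ![2, 4, 1, 3, 7, 8, 6, 5, 0] ![6, 1, 5, 2, 0, 7, 3, 4, 8] :=
  good2 _ _ ![8, 2, 0, 3, 1, 7, 6, 4, 5] ![4, 1, 3, 6, 7, 2, 0, 5, 8]
    [[0, 0, 0, 0, 0, 0, 0, 0, 0], [0, 0, 0, 0, 1, 1, 0, 1, 1], [0, 1, 0, 0, 1, 1, 0, 1, 1], [0, 1, 1, 0, 1, 1, 0, 1, 1], [0, 2, 2, 2, 0, 2, 2, 2, 2], [0, 2, 2, 2, 3, 0, 2, 3, 2], [0, 1, 1, 1, 1, 1, 0, 1, 1], [0, 2, 2, 2, 3, 2, 2, 0, 2], [0, 3, 3, 3, 3, 3, 3, 3, 0]]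
    [[0, 0, 1, 2, 0, 0, 3, 0, 0], [0, 3, 2, 1, 4, 4, 0, 4, 4], [0, 3, 3, 3, 0, 2, 3, 1, 3], [0, 1, 1, 1, 3, 1, 1, 2, 0]]
    (by decide +kernel) (by decide +kernel) (by decide +kernel) (by decide +kernel)
    (by decide +kernel) (by decide +kernel) (by decide +kernel)

/-- PGammaL2 8, order 1512, 9 points -/
theorem pgaml2_8 : Good2 (n := 9) ![2, 8, 3, 5, 1, 4, 7, 0, 6] ![1, 4, 2, 8, 5, 3, 0, 7, 6] :=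
  good2 _ _ ![7, 4, 0, 2, 5, 3, 8, 6, 1] ![6, 0, 2, 5, 1, 4, 8, 7, 3]
    [[0, 0, 0, 0, 0, 0, 0, 0, 0], [0, 0, 0, 0, 0, 0, 1, 1, 1], [0, 1, 0, 1, 1, 1, 1, 1, 1], [0, 1, 0, 0, 1, 1, 1, 1, 1], [0, 1, 0, 0, 0, 0, 1, 1, 1], [0, 1, 0, 0, 1, 0, 1, 1, 1], [0, 2, 2, 2, 2, 2, 0, 2, 3], [0, 3, 3, 3, 3, 3, 3, 0, 3], [0, 2, 2, 2, 2, 2, 2, 2, 0]]
    [[0, 0, 4, 3, 1, 2, 0, 0, 0], [0, 4, 0, 1, 3, 2, 5, 5, 5], [0, 2, 2, 2, 2, 2, 1, 2, 0], [0, 1, 1, 1, 1, 1, 1, 0, 2]]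
    (by decide +kernel) (by decide +kernel) (by decide +kernel) (by decide +kernel)
    (by decide +kernel) (by decide +kernel) (by decide +kernel)

/-- PGL2 9, order 720, 10 points -/
theorem pgl2_9 : Good2 (n := 10) ![8, 1, 6, 3, 7, 9, 0, 5, 4, 2] ![3, 0, 6, 8, 5, 2, 1, 7, 4, 9] :=
  good2 _ _ ![6, 1, 9, 3, 8, 7, 2, 4, 0, 5] ![1, 6, 5, 0, 8, 4, 2, 7, 3, 9]
    [[0, 0, 0, 0, 0, 0, 0, 0, 0, 0], [0, 0, 2, 2, 0, 1, 2, 1, 0, 2], [0, 3, 0, 0, 0, 1, 3, 1, 1, 2], [0, 3, 2, 0, 1, 2, 2, 1, 1, 2], [0, 2, 2, 0, 0, 3, 2, 1, 0, 2], [0, 3, 3, 0, 1, 0, 3, 1, 0, 2], [0, 3, 2, 0, 1, 2, 0, 1, 0, 2], [0, 2, 2, 0, 0, 2, 2, 0, 0, 3], [0, 2, 2, 0, 1, 2, 2, 1, 0, 2], [0, 3, 3, 0, 0, 1, 3, 1, 0, 0]]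
    [[0, 0, 0, 3, 1, 0, 0, 0, 2, 0], [0, 0, 0, 0, 2, 1, 0, 3, 1, 0], [0, 1, 4, 2, 0, 4, 3, 0, 0, 5], [0, 4, 2, 0, 0, 1, 3, 0, 0, 1]]
    (by decide +kernel) (by decide +kernel) (by decide +kernel) (by decide +kernel)
    (by decide +kernel) (by decide +kernel) (by decide +kernel)

/-- PGL2 11, order 1320, 12 points -/
theorem pgl2_11 : Good2 (n := 12) ![3, 0, 2, 5, 4, 6, 10, 1, 11, 7, 8, 9] ![4, 1, 11, 10, 3, 8, 5, 0, 2, 9, 6, 7] :=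
  good2 _ _ ![1, 7, 2, 0, 4, 3, 5, 9, 10, 11, 6, 8] ![7, 1, 8, 4, 0, 6, 10, 11, 5, 9, 3, 2]
    [[0, 0, 0, 0, 0, 0, 0, 0, 0, 0, 0, 0], [0, 0, 5, 5, 5, 5, 5, 6, 5, 6, 5, 6], [0, 7, 0, 4, 5, 5, 5, 6, 5, 6, 5, 6], [0, 6, 0, 0, 1, 2, 0, 6, 3, 6, 3, 6], [0, 6, 6, 0, 0, 0, 0, 6, 0, 6, 0, 6], [0, 6, 2, 3, 1, 0, 3, 6, 4, 6, 1, 6], [0, 6, 3, 1, 1, 4, 0, 6, 2, 6, 3, 6], [0, 7, 5, 5, 5, 5, 5, 0, 6, 6, 5, 6], [0, 7, 4, 5, 4, 5, 5, 7, 0, 6, 5, 6], [0, 7, 5, 5, 5, 5, 5, 7, 5, 0, 5, 5], [0, 6, 3, 2, 1, 2, 4, 6, 3, 6, 0, 6], [0, 7, 5, 5, 5, 5, 5, 7, 5, 6, 5, 0]]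
    [[0, 0, 2, 1, 0, 1, 2, 0, 1, 0, 1, 0], [0, 0, 0, 1, 2, 0, 0, 0, 0, 0, 1, 0], [0, 0, 3, 1, 0, 2, 0, 0, 1, 0, 0, 0], [0, 0, 3, 1, 0, 0, 1, 0, 3, 0, 2, 0], [0, 0, 4, 5, 4, 2, 1, 0, 3, 0, 0, 0], [0, 0, 2, 4, 3, 4, 4, 0, 3, 0, 4, 1], [0, 1, 1, 0, 0, 0, 0, 2, 3, 5, 0, 4], [0, 2, 0, 0, 0, 0, 0, 1, 0, 0, 0, 0]]
    (by decide +kernel) (by decide +kernel) (by decide +kernel) (by decide +kernel)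
    (by decide +kernel) (by decide +kernel) (by decide +kernel)

/-- M12, order 95040, 12 points -/
theorem m12 : Good2 (n := 12) ![5, 1, 7, 6, 11, 8, 10, 3, 2, 4, 9, 0] ![5, 0, 10, 11, 9, 8, 3, 7, 2, 1, 6, 4] :=
  good2 _ _ ![11, 1, 8, 7, 9, 0, 3, 2, 5, 10, 6, 4] ![1, 9, 8, 6, 11, 0, 10, 7, 5, 4, 2, 3]
    [[0, 0, 0, 0, 0, 0, 0, 0, 0, 0, 0, 0], [0, 0, 0, 1, 4, 0, 1, 1, 0, 3, 1, 4], [0, 4, 0, 1, 2, 0, 1, 1, 0, 4, 1, 3], [0, 5, 0, 0, 5, 0, 2, 1, 0, 5, 3, 5], [0, 5, 0, 4, 0, 0, 4, 1, 0, 5, 1, 3], [0, 4, 1, 1, 2, 0, 1, 1, 1, 3, 1, 3], [0, 5, 0, 1, 5, 0, 0, 1, 0, 3, 2, 5], [0, 4, 0, 2, 4, 0, 2, 0, 0, 4, 2, 4], [0, 4, 1, 1, 3, 0, 1, 1, 0, 2, 1, 2], [0, 5, 0, 4, 3, 0, 1, 1, 0, 0, 1, 4], [0, 5, 0, 1, 3, 0, 1, 1, 0, 2, 0, 5], [0, 5, 1, 2, 5, 0, 4, 1, 0, 5, 4, 0]]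
    [[0, 0, 1, 0, 0, 3, 0, 0, 2, 0, 0, 0], [0, 0, 2, 5, 0, 0, 4, 6, 1, 0, 3, 0], [0, 0, 0, 2, 1, 0, 3, 0, 0, 5, 4, 1], [0, 0, 0, 0, 2, 0, 0, 0, 0, 1, 1, 3], [0, 1, 0, 3, 2, 0, 3, 0, 0, 1, 3, 2], [0, 4, 0, 0, 2, 0, 0, 0, 0, 3, 0, 1]]
    (by decide +kernel) (by decide +kernel) (by decide +kernel) (by decide +kernel)
    (by decide +kernel) (by decide +kernel) (by decide +kernel)

end Vale.Agent.P329.R2.H874
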