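import Vale.Agent.P329.R2.H874.Exam
import Vale.Agent.P329.R2.H989.Exam2

/-! Explicit clean alphabets of permutations, any number of letters -/

namespace Vale.Agent.P329.R2.H874

open Vale.Agent.P329 Vale.Agent.P329.H548

/-- `k` letters acting as permutations of `Fin n`; every language recognised through them
has height at most one -/
def Good {n k : ℕ} (p : Fin k → Fin n → Fin n) : Prop :=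
  ∃ f : Fin k → Equiv.Perm (Fin n), (∀ a, ⇑(f a) = p a) ∧
    ∀ S : Set (Equiv.Perm (Fin n)), ∃ x : GRE (Fin k), x.height ≤ 1 ∧
      x.lang = {w | (w.map f).prod ∈ S}

theorem height_of_clean' {α X : Type} [Finite α] [Finite X] (f : α → Equiv.Perm X) (r : X)
    (hn : NoCyc (dl (fun a => (f a)⁻¹) r)) (S : Set (Equiv.Perm X)) :
    ∃ x : GRE α, x.height ≤ 1 ∧ x.lang = {w | (w.map f).prod ∈ S} := by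
  obtain ⟨e, he, -, hg⟩ := perm_good f r hn
  apply height_one he
  intro u v huv
  change (u.map f).prod ∈ S ↔ (v.map f).prod ∈ S
  rw [hg u v huv]

theorem run_comp {σ α β : Type} (δ : σ → α → Option σ) (g : β → α) (w : List β) :
    ∀ s : σ, run (fun s b => δ s (g b)) s w = run δ s (w.map g) := by
  induction w with
  | nil => intro s; rfl
  | cons b w ih =>
    intro s
    rw [List.map_cons]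
    unfold run
    rcases δ s (g b) with _ | t
    · rfl
    · exact ih t

theorem noCyc_comp {α β X : Type} (f : α → Equiv.Perm X) (r : X) (g : β → α)
    (hn : NoCyc (dl (fun a => (f a)⁻¹) r)) :
    NoCyc (dl (fun b => (f (g b))⁻¹) r) := by
  intro z s n h0 hs
  have hrun : ∀ (w : List β) (s : X), run (dl (fun b => (f (g b))⁻¹) r) s w =
      run (dl (fun a => (f a)⁻¹) r) s (w.map g) := fun w s =>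
    run_comp (dl (fun a => (f a)⁻¹) r) g w s
  rw [hrun] at hs ⊢
  apply hn (z.map g) s n h0
  rw [← hs, List.map_flatten, List.map_replicate]

theorem good {n k : ℕ} [NeZero n] (p q : Fin k → Fin n → Fin n) (c ρ : List (List ℕ))
    (h1 : ∀ a i, q a (p a i) = i) (h2 : ∀ a i, p a (q a i) = i)
    (k1 : ∀ a, ∀ x y : Fin n, x ≠ y → x ≠ 0 → y ≠ 0 → q a x ≠ 0 → q a y ≠ 0 →
      tb c (q a x).val (q a y).val ≤ tb c x.val y.val)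
    (k3 : ∀ x y : Fin n, x ≠ y → x ≠ 0 → y ≠ 0 →
      tb ρ (tb c x.val y.val) x.val < tb ρ (tb c x.val y.val) y.val) : Good p := by
  refine ⟨fun a => ⟨p a, q a, h1 a, h2 a⟩, fun a => rfl, fun S => ?_⟩
  exact height_of_clean' _ (0 : Fin n)
    (noCyc_pairs _ _ (fun x y => tb c x.val y.val) (fun l x => tb ρ l x.val)
      (fun a x y => k1 a x y) k3) S

/-- GL3 2, order 168, 7 points, 4 letters -/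
theorem gGL3_2 : Good (n := 7) (k := 4) ![![1, 4, 6, 2, 3, 0, 5],
      ![3, 6, 5, 4, 1, 0, 2],
      ![4, 3, 0, 6, 1, 2, 5],
      ![4, 2, 5, 1, 3, 6, 0]] :=
  good _ ![![5, 0, 3, 4, 1, 6, 2],
      ![5, 4, 6, 0, 3, 2, 1],
      ![2, 4, 5, 1, 0, 6, 3],
      ![6, 3, 1, 4, 0, 2, 5]]
    [[0, 0, 0, 0, 0, 0, 0], [0, 0, 2, 2, 0, 2, 2], [0, 3, 0, 3, 3, 4, 4], [0, 1, 2, 0, 1, 2, 2], [0, 1, 2, 0, 0, 2, 2], [0, 3, 5, 3, 3, 0, 4], [0, 3, 3, 3, 3, 5, 0]]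
    [[0, 0, 0, 2, 1, 0, 0], [0, 2, 0, 0, 1, 0, 0], [0, 0, 2, 1, 0, 2, 2], [0, 2, 1, 2, 2, 0, 0], [0, 0, 0, 0, 0, 1, 2], [0, 0, 2, 0, 0, 1, 0]]
    (by decide +kernel) (by decide +kernel) (by decide +kernel) (by decide +kernel)

/-- PGL2 7, order 336, 8 points, 6 letters -/
theorem gPGL2_7 : Good (n := 8) (k := 6) ![![4, 1, 2, 7, 3, 0, 5, 6],
      ![7, 1, 0, 6, 3, 5, 2, 4],
      ![4, 0, 1, 3, 6, 2, 5, 7],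
      ![3, 2, 5, 4, 7, 0, 1, 6],
      ![3, 5, 0, 6, 4, 2, 1, 7],
      ![4, 2, 0, 6, 7, 1, 5, 3]] :=
  good _ ![![5, 1, 2, 4, 0, 6, 7, 3],
      ![2, 1, 6, 4, 7, 5, 3, 0],
      ![1, 2, 5, 3, 0, 6, 4, 7],
      ![5, 6, 1, 0, 3, 2, 7, 4],
      ![2, 6, 5, 0, 4, 1, 3, 7],
      ![2, 5, 1, 7, 0, 6, 3, 4]]
    [[0, 0, 0, 0, 0, 0, 0, 0], [0, 0, 4, 3, 3, 4, 3, 3], [0, 5, 0, 3, 3, 4, 3, 3], [0, 2, 2, 0, 1, 2, 2, 1], [0, 2, 2, 0, 0, 2, 2, 1], [0, 3, 5, 3, 3, 0, 3, 3], [0, 2, 2, 1, 3, 2, 0, 3], [0, 2, 2, 2, 0, 2, 2, 0]]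
    [[0, 0, 0, 2, 1, 0, 0, 0], [0, 0, 0, 1, 2, 0, 0, 3], [0, 3, 3, 1, 0, 3, 2, 0], [0, 1, 0, 2, 3, 0, 2, 3], [0, 0, 1, 0, 0, 2, 0, 0], [0, 2, 1, 0, 0, 0, 0, 0]]
    (by decide +kernel) (by decide +kernel) (by decide +kernel) (by decide +kernel)

/-- PSL2 8, order 504, 9 points, 4 letters -/
theorem gPSL2_8 : Good (n := 9) (k := 4) ![![2, 4, 1, 3, 7, 8, 6, 5, 0],
      ![2, 7, 3, 1, 4, 5, 0, 8, 6],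
      ![3, 1, 4, 2, 5, 6, 8, 7, 0],
      ![3, 5, 2, 4, 1, 7, 0, 6, 8]] :=
  good _ ![![8, 2, 0, 3, 1, 7, 6, 4, 5],
      ![6, 3, 0, 2, 4, 5, 8, 1, 7],
      ![8, 1, 3, 0, 2, 4, 5, 7, 6],
      ![6, 4, 2, 0, 3, 1, 7, 5, 8]]
    [[0, 0, 0, 0, 0, 0, 0, 0, 0], [0, 0, 1, 1, 2, 3, 3, 2, 3], [0, 2, 0, 0, 2, 2, 2, 2, 0], [0, 2, 1, 0, 2, 2, 0, 2, 2], [0, 3, 1, 1, 0, 2, 3, 3, 3], [0, 4, 1, 1, 1, 0, 5, 4, 5], [0, 4, 1, 1, 4, 6, 0, 6, 6], [0, 1, 1, 1, 4, 5, 5, 0, 5], [0, 4, 1, 1, 4, 6, 7, 6, 0]]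
    [[0, 0, 0, 1, 0, 0, 2, 0, 1], [0, 1, 3, 2, 1, 0, 0, 0, 0], [0, 1, 0, 0, 2, 3, 1, 2, 1], [0, 1, 0, 0, 0, 2, 2, 1, 2], [0, 1, 0, 0, 2, 0, 0, 1, 0], [0, 0, 0, 0, 0, 1, 2, 0, 2], [0, 0, 0, 0, 0, 2, 0, 2, 1], [0, 0, 0, 0, 0, 0, 1, 0, 0]]
    (by decide +kernel) (by decide +kernel) (by decide +kernel) (by decide +kernel)

/-- PGammaL2 8, order 1512, 9 points, 2 letters -/
theorem gPGaL2_8 : Good (n := 9) (k := 2) ![![2, 8, 3, 5, 1, 4, 7, 0, 6],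
      ![1, 4, 2, 8, 5, 3, 0, 7, 6]] :=
  good _ ![![7, 4, 0, 2, 5, 3, 8, 6, 1],
      ![6, 0, 2, 5, 1, 4, 8, 7, 3]]
    [[0, 0, 0, 0, 0, 0, 0, 0, 0], [0, 0, 0, 0, 0, 0, 1, 1, 1], [0, 1, 0, 1, 1, 1, 1, 1, 1], [0, 1, 0, 0, 1, 1, 1, 1, 1], [0, 1, 0, 0, 0, 0, 1, 1, 1], [0, 1, 0, 0, 1, 0, 1, 1, 1], [0, 2, 2, 2, 2, 2, 0, 2, 3], [0, 3, 3, 3, 3, 3, 3, 0, 3], [0, 2, 2, 2, 2, 2, 2, 2, 0]]
    [[0, 0, 4, 3, 1, 2, 0, 0, 0], [0, 4, 0, 1, 3, 2, 5, 5, 5], [0, 2, 2, 2, 2, 2, 1, 2, 0], [0, 1, 1, 1, 1, 1, 1, 0, 2]]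
    (by decide +kernel) (by decide +kernel) (by decide +kernel) (by decide +kernel)

/-- PGL2 9, order 720, 10 points, 4 letters -/
theorem gPGL2_9 : Good (n := 10) (k := 4) ![![8, 1, 6, 3, 7, 9, 0, 5, 4, 2],
      ![8, 4, 0, 7, 3, 2, 6, 5, 1, 9],
      ![1, 8, 2, 4, 7, 5, 0, 9, 3, 6],
      ![1, 3, 0, 7, 4, 6, 2, 9, 8, 5]] :=
  good _ ![![6, 1, 9, 3, 8, 7, 2, 4, 0, 5],
      ![2, 8, 5, 4, 1, 7, 6, 3, 0, 9],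
      ![6, 0, 2, 8, 3, 5, 9, 4, 1, 7],
      ![2, 0, 6, 1, 4, 9, 5, 3, 8, 7]]
    [[0, 0, 0, 0, 0, 0, 0, 0, 0, 0], [0, 0, 2, 0, 2, 2, 2, 2, 0, 2], [0, 3, 0, 3, 3, 3, 6, 3, 3, 5], [0, 1, 4, 0, 2, 4, 4, 4, 2, 4], [0, 1, 4, 3, 0, 4, 4, 4, 1, 4], [0, 3, 4, 3, 3, 0, 5, 3, 3, 5], [0, 3, 7, 3, 3, 6, 0, 3, 3, 3], [0, 3, 4, 3, 3, 4, 4, 0, 3, 4], [0, 1, 2, 1, 0, 2, 2, 2, 0, 2], [0, 3, 6, 3, 3, 4, 4, 3, 3, 0]]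
    [[0, 0, 0, 1, 2, 0, 0, 0, 1, 0], [0, 3, 0, 2, 0, 0, 0, 0, 1, 0], [0, 0, 2, 0, 1, 2, 2, 2, 1, 2], [0, 3, 0, 4, 3, 1, 0, 2, 3, 1], [0, 0, 4, 0, 0, 3, 3, 1, 0, 2], [0, 0, 0, 0, 0, 0, 1, 0, 0, 1], [0, 0, 1, 0, 0, 3, 2, 0, 0, 0], [0, 0, 1, 0, 0, 0, 0, 0, 0, 0]]
    (by decide +kernel) (by decide +kernel) (by decide +kernel) (by decide +kernel)

/-- PGL2 11, order 1320, 12 points, 2 letters -/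
theorem gPGL2_11 : Good (n := 12) (k := 2) ![![3, 0, 2, 5, 4, 6, 10, 1, 11, 7, 8, 9],
      ![4, 1, 11, 10, 3, 8, 5, 0, 2, 9, 6, 7]] :=
  good _ ![![1, 7, 2, 0, 4, 3, 5, 9, 10, 11, 6, 8],
      ![7, 1, 8, 4, 0, 6, 10, 11, 5, 9, 3, 2]]
    [[0, 0, 0, 0, 0, 0, 0, 0, 0, 0, 0, 0], [0, 0, 5, 5, 5, 5, 5, 6, 5, 6, 5, 6], [0, 7, 0, 4, 5, 5, 5, 6, 5, 6, 5, 6], [0, 6, 0, 0, 1, 2, 0, 6, 3, 6, 3, 6], [0, 6, 6, 0, 0, 0, 0, 6, 0, 6, 0, 6], [0, 6, 2, 3, 1, 0, 3, 6, 4, 6, 1, 6], [0, 6, 3, 1, 1, 4, 0, 6, 2, 6, 3, 6], [0, 7, 5, 5, 5, 5, 5, 0, 6, 6, 5, 6], [0, 7, 4, 5, 4, 5, 5, 7, 0, 6, 5, 6], [0, 7, 5, 5, 5, 5, 5, 7, 5, 0, 5, 5], [0, 6, 3, 2, 1, 2, 4, 6, 3, 6, 0, 6], [0, 7, 5, 5, 5, 5, 5, 7, 5, 6, 5, 0]]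
    [[0, 0, 2, 1, 0, 1, 2, 0, 1, 0, 1, 0], [0, 0, 0, 1, 2, 0, 0, 0, 0, 0, 1, 0], [0, 0, 3, 1, 0, 2, 0, 0, 1, 0, 0, 0], [0, 0, 3, 1, 0, 0, 1, 0, 3, 0, 2, 0], [0, 0, 4, 5, 4, 2, 1, 0, 3, 0, 0, 0], [0, 0, 2, 4, 3, 4, 4, 0, 3, 0, 4, 1], [0, 1, 1, 0, 0, 0, 0, 2, 3, 5, 0, 4], [0, 2, 0, 0, 0, 0, 0, 1, 0, 0, 0, 0]]
    (by decide +kernel) (by decide +kernel) (by decide +kernel) (by decide +kernel)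

/-- M12, order 95040, 12 points, 4 letters -/
theorem gM12 : Good (n := 12) (k := 4) ![![5, 1, 7, 6, 11, 8, 10, 3, 2, 4, 9, 0],
      ![5, 0, 10, 11, 9, 8, 3, 7, 2, 1, 6, 4],
      ![7, 9, 8, 1, 11, 5, 3, 2, 10, 4, 6, 0],
      ![7, 0, 8, 6, 9, 3, 10, 2, 5, 1, 4, 11]] :=
  good _ ![![11, 1, 8, 7, 9, 0, 3, 2, 5, 10, 6, 4],
      ![1, 9, 8, 6, 11, 0, 10, 7, 5, 4, 2, 3],
      ![11, 3, 7, 6, 9, 5, 10, 0, 2, 1, 8, 4],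
      ![1, 9, 7, 5, 10, 8, 3, 0, 2, 4, 6, 11]]
    [[0, 0, 0, 0, 0, 0, 0, 0, 0, 0, 0, 0], [0, 0, 1, 3, 4, 1, 3, 1, 1, 4, 3, 4], [0, 2, 0, 2, 2, 0, 2, 1, 0, 2, 2, 2], [0, 4, 1, 0, 4, 1, 2, 1, 1, 4, 2, 4], [0, 5, 1, 3, 0, 1, 3, 1, 1, 5, 3, 4], [0, 2, 1, 2, 2, 0, 2, 1, 1, 2, 2, 2], [0, 4, 1, 3, 4, 1, 0, 1, 1, 4, 2, 4], [0, 2, 0, 2, 2, 0, 2, 0, 0, 2, 2, 2], [0, 2, 1, 2, 2, 0, 2, 1, 0, 2, 2, 2], [0, 5, 1, 3, 4, 1, 3, 1, 1, 0, 3, 4], [0, 4, 1, 3, 4, 1, 3, 1, 1, 4, 0, 4], [0, 5, 1, 3, 5, 1, 3, 1, 1, 5, 3, 0]]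
    [[0, 0, 1, 0, 0, 3, 0, 0, 2, 0, 0, 0], [0, 0, 3, 0, 0, 1, 0, 4, 2, 0, 0, 0], [0, 1, 0, 1, 1, 0, 2, 0, 0, 1, 3, 1], [0, 0, 0, 3, 0, 0, 2, 0, 0, 0, 1, 0], [0, 1, 0, 0, 3, 0, 0, 0, 0, 2, 0, 4], [0, 3, 0, 0, 1, 0, 0, 0, 0, 2, 0, 0]]
    (by decide +kernel) (by decide +kernel) (by decide +kernel) (by decide +kernel)

/-- M_11, order 7920, 11 points, 2 letters -/
theorem gM11 : Good (n := 11) (k := 2) ![![2, 8, 4, 5, 1, 9, 0, 6, 3, 10, 7],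
      ![1, 8, 4, 7, 9, 3, 0, 10, 2, 5, 6]] := by
  obtain ⟨f, h1, h2, hn⟩ := H989.ex_M11
  refine ⟨fun a => f (a == 0), fun a => ?_, fun S => ?_⟩
  · fin_cases a
    · exact funext h1
    · exact funext h2
  · exact height_of_clean' _ 0 (noCyc_comp f 0 (fun a => a == 0) hn) S

end Vale.Agent.P329.R2.H874
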