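import Vale.Agent.P329.R2.H446.Gap
import Vale.Agent.P329.R2.H446.Alt

/-! Average case: the six clauses of helper446 -/

namespace Vale.Agent.P329.R2.H874.Six

open Vale.Agent.P329 (GRE)
open Vale.Agent.P329.H259
open Vale.Agent.P329.R2.H446

theorem six :
    -- (1) every regular language against every finite group
    (∀ (α G : Type) [Finite α] [Group G] [Finite G] (f : α → G) (e : GRE α),
      Function.Surjective (fun w : List α => (w.map f).prod) →
      ∃ R : Subgroup G, R.Normal ∧ CosetBound f e.lang R ∧
        (∃ N : ℕ, 0 < N ∧ ∀ u v : List α, Syn e.lang u v → u.length ≡ v.length [MOD N] →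
          (u.map f).prod * ((v.map f).prod)⁻¹ ∈ R) ∧
        (∀ u v : List α, Syn e.lang u v → ∀ k : G,
          ((u.map f).prod * ((v.map f).prod)⁻¹) * k *
            ((u.map f).prod * ((v.map f).prod)⁻¹)⁻¹ * k⁻¹ ∈ R)) ∧
    -- (2) every finite group, every height `h ≥ 1`: one normal subgroup `R` describes both exact
    -- recognition by height `h` and the statistics of all languages of height at most `h`
    (∀ (α G : Type) [Finite α] [Group G] [Finite G] (f : α → G) (h : ℕ), 1 ≤ h →
      Function.Surjective (fun w : List α => (w.map f).prod) →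
      ∃ R : Subgroup G, R.Normal ∧
        (∀ S : Set G, (∃ x : GRE α, x.height ≤ h ∧ x.lang = {w | (w.map f).prod ∈ S}) ↔
          ∀ s ∈ S, ∀ r ∈ R, s * r ∈ S) ∧
        ∀ e : GRE α, e.height ≤ h → CosetBound f e.lang R) ∧
    -- (3) nonabelian simple groups, every height: exact recognition of all subsets, or
    -- independence of all languages of that height
    (∀ (α G : Type) [Finite α] [Group G] [Finite G] [IsSimpleGroup G] (f : α → G) (h : ℕ),
      (∃ a b : G, a * b ≠ b * a) →
      Function.Surjective (fun w : List α => (w.map f).prod) →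
      (∀ S : Set G, ∃ x : GRE α, x.height ≤ h ∧ x.lang = {w | (w.map f).prod ∈ S}) ∨
      ∀ e : GRE α, e.height ≤ h → Independent f e.lang) ∧
    -- (4) nonabelian simple groups: a language of too small height is no better, on average,
    -- than the better of the two constant guesses
    (∀ (α G : Type) [Finite α] [Group G] [Finite G] [IsSimpleGroup G] (f : α → G) (S : Set G)
      (h : ℕ), (∃ a b : G, a * b ≠ b * a) →
      Function.Surjective (fun w : List α => (w.map f).prod) →
      (¬ ∃ x : GRE α, x.height ≤ h ∧ x.lang = {w | (w.map f).prod ∈ S}) →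
      ∀ e : GRE α, e.height ≤ h → ∃ C ρ : ℝ, 0 ≤ C ∧ 0 ≤ ρ ∧ ρ < 1 ∧ ∀ n : ℕ,
        ({w : List α | w.length = n ∧ (w ∈ e.lang ↔ (w.map f).prod ∈ S)}.ncard : ℝ) ≤
          (((max S.ncard Sᶜ.ncard : ℕ) : ℝ) / Nat.card G + C * ρ ^ n) *
            (Nat.card α : ℝ) ^ n) ∧
    -- (5) every finite group, every height `h ≥ 1`: in a whole residue class of lengths a language
    -- of too small height errs on at least the fraction `1 / |G|` of all words
    (∀ (α G : Type) [Finite α] [Group G] [Finite G] (f : α → G) (S : Set G) (h : ℕ), 1 ≤ h →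
      Function.Surjective (fun w : List α => (w.map f).prod) →
      (¬ ∃ x : GRE α, x.height ≤ h ∧ x.lang = {w | (w.map f).prod ∈ S}) →
      ∃ N : ℕ, 0 < N ∧ ∃ m : ℕ, ∀ e : GRE α, e.height ≤ h →
        ∃ C ρ : ℝ, 0 ≤ C ∧ 0 ≤ ρ ∧ ρ < 1 ∧ ∀ n : ℕ, n ≡ m [MOD N] →
          (1 / Nat.card G - C * ρ ^ n) * (Nat.card α : ℝ) ^ n ≤
            ({w : List α | w.length = n ∧
              ¬ (w ∈ e.lang ↔ (w.map f).prod ∈ S)}.ncard : ℝ)) ∧
    -- (6) every level: one language over the alphabet of all elements of an alternating group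
    -- which is not independent of the product
    (∀ h : ℕ, GroupHeight h ↔
      ∀ N : ℕ, ∃ n, N ≤ n ∧ ∃ e : GRE (alternatingGroup (Fin n)), e.height ≤ h ∧
        ¬ Independent (id : alternatingGroup (Fin n) → alternatingGroup (Fin n)) e.lang) := by
  refine ⟨?_, ?_, ?_, ?_, ?_, ?_⟩
  · intro α G _ _ _ f e hs
    exact regular_dichotomy f hs e
  · intro α G _ _ _ f h hh hs
    exact visible_quotient f hs h hh
  · intro α G _ _ _ _ f h hG hs
    by_cases H : ∀ e : GRE α, e.height ≤ h → Independent f e.lang
    · exact Or.inr H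
    · push Not at H
      obtain ⟨e, he, hI⟩ := H
      rcases simple_dichotomy f hG hs e h he with h1 | h1
      · exact Or.inl h1
      · exact absurd h1 hI
  · intro α G _ _ _ _ f S h hG hs hS e he
    exact agreement f hG hs S h hS e he
  · intro α G _ _ _ f S h hh hs hS
    exact gap_density f hs h hh S hS
  · intro h
    exact ⟨fun H N => ⟨max N 5, le_max_left _ _, corr_of_all h H (max N 5) (le_max_right _ _)⟩,
      all_of_corr h⟩

end Vale.Agent.P329.R2.H874.Six
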